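import Crest.Agent.X262.Loc95.Slc
import Crest.Agent.X262.Fam17.Pl
import Crest.Agent.X262.Sark.Defs

/-!
# Row 262, SUB (helper4), part 0: restriction to a divisor

* `car_rs`, `isMod_rs`, `lin_up_rs`, `dg_car'`, `exists_pb_hom` : restriction of Cartier classes;
* `exists_emb` : two valuations with the same centre;
* `one_le_val`, `val_eq_one`, `dg_pos_of_gz` : the primes of a smooth model through a centre;
* `sc Z m` : the same terminal model with a larger index.
-/

set_option autoImplicit false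
set_option linter.unusedSectionVars false

open scoped KaehlerDifferential

noncomputable section

namespace Crest.Agent.X262.Sub4

open Crest.Agent.X277 Crest.Agent.X277.BD Crest.Agent.X277.Pst
open Crest.Agent.X277.BD.Cyc (Rf plV lnr_plV)
open Crest.Agent.X277.Lef
open Crest.Agent.X277.BD.Br (On oP kP)
open Crest.Agent.X262.Mod (IsMod Car Gz)
open Crest.Agent.X262.Geo Crest.Agent.X262.Loc
open Crest.Agent.X262.Sark (TM)
open List (replicate)

section Gen

variable {k F : Type} [Field k] [Field F] [Algebra k F] {H a : BD k F} {V W : RZ k F} {x : F}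


theorem lin_sub {b c d : BD k F} (h : Lin a b) (h' : Lin c d) : Lin (a - c) (b - d) := by
  rw [sub_eq_add_neg, sub_eq_add_neg]
  exact h.add h'.neg

theorem car_rs {E : Type} [Field E] [Algebra k E] (p : Pl k F k E) (h : Car H a) :
    Car (p.rs H) (p.rs a) := by
  obtain ⟨c, h1, h2⟩ := h
  refine ⟨c, Lin.free ?_ (Pl.free_rs (p := p) h1), Lin.free ?_ (Pl.free_rs (p := p) h2)⟩
  · exact ((Pl.lin_rs_add _ _).trans ((Fam.lin_rs_nsmul p c H).add Lin.rfl)).symm
  · exact ((Fam.lin_rs_sub p _ _).trans (lin_sub (Fam.lin_rs_nsmul p c H) Lin.rfl)).symm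

theorem cen_le {H' : BD k F} (hH : Free H') (h : Car H' H) (V : RZ k F) : cen H V ≤ cen H' V :=
  Gfm.cf_le_of_car (Pl.free_rs hH) (car_rs _ h)

theorem lin_up_rs (hH : Free H) (ha : Car H a) {M : IntermediateField k (Rf V)}
    (hM : cen H V ≤ M) : Lin (up M ((plV V).rs a)) 0 :=
  Gfm.lin_up_of_car (Pl.free_rs hH) (car_rs _ ha) hM

theorem exists_pb_of_car (hH : Free H) (ha : Car H a) {M : IntermediateField k F}
    (hM : cf H ≤ M) : ∃ a₀ : BD k M, Lin a (pb M.val a₀) := by
  obtain ⟨c, h1, h2⟩ := ha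
  have h3 : cf (c • H + a) ≤ cf H := Gfm.cf_le_of_free (n := c + c) hH (by
    convert h2 using 1
    rw [add_nsmul]
    abel)
  have h4 : cf (c • H) ≤ cf H := Gfm.cf_le_of_free (n := c) hH (by simpa using Free.zero)
  obtain ⟨y, -, h5⟩ := exists_pb_of_le h1 ((sf_le_cf _).trans (h3.trans hM))
  obtain ⟨z, -, h6⟩ := exists_pb_of_le (hH.nsmul c) ((sf_le_cf _).trans (h4.trans hM))
  have h7 := lin_sub h5 h6
  rw [← map_sub, add_sub_cancel_left] at h7
  exact ⟨_, h7⟩

/-- a free class whose sections have quotients in the image of `α` is a pull-back -/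
theorem exists_pb_hom {S : Type} [Field S] [Algebra k S] (α : S →ₐ[k] F) (hh : Free a)
    (h : cf a ≤ α.fieldRange) : ∃ a₀ : BD k S, Free a₀ ∧ Lin a (pb α a₀) := by
  obtain ⟨r, s, h0, h1, h2⟩ := hh.exists_fam
  choose y hy using fun i => AlgHom.mem_fieldRange.1 (h (div_mem_cf (h1 i) (h1 0)))
  refine ⟨mxf k y, free_mxf _, s 0, h0 0, ?_⟩
  rw [pb_mxf, ← sub_eq_iff_eq_add]
  refine eq_mxf (fun i => (mem_Sec_sub_pr (h0 0)).2 ?_) fun V => ?_
  · rw [hy, div_mul_cancel₀ _ (h0 0)]
    exact h1 i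
  · obtain ⟨i, hi⟩ := h2 V
    exact ⟨i, by rw [hy, val_sub, val_pr (h0 0), map_div₀, hi]⟩



variable [CharZero k] [Algebra.EssFiniteType k F]

/-- classes of the model have degree zero on exceptional divisors -/
theorem dg_car' (hH : IsMod H) (hV : Dvs V) (h : ¬ Prm H V) {l : List (BD k F)}
    (hl : ∀ a ∈ l, Car H a) : dg V l = 0 := by
  by_cases h0 : l.length + 1 = dim k F
  swap
  · exact dg_of_ne hV h0
  have := essFT_Rf hV
  obtain ⟨lam, h1, h2⟩ : ∃ lam : List (BD k (cen H V)), lam.length = l.length ∧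
      List.Forall₂ Lin (l.map (plV V).rs) (lam.map (pb (cen H V).val)) := by
    clear h0
    induction l with
    | nil => exact ⟨[], rfl, List.Forall₂.nil⟩
    | cons a l ih =>
      obtain ⟨lam, h1, h2⟩ := ih fun b hb => hl b (by simp [hb])
      obtain ⟨a₀, h3⟩ := exists_pb_of_car (Pl.free_rs (p := plV V) hH.free)
        (car_rs _ (hl a (by simp))) le_rfl
      exact ⟨a₀ :: lam, by simp [h1], List.Forall₂.cons h3 h2⟩
  have h3 := (prm_iff_dim_cen hH hV).not.1 h
  have h6 := dim_cen_add H hV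
  have h4 := bnum_congr h2 []
  have h5 := bnum_pb_zero (cen H V).val (l := lam) (by omega) []
  rw [dg_eq, ← List.append_nil (l.map _), h4, h5]

theorem isMod_rs (hH : IsMod H) (hV : Prm H V) : IsMod ((plV V).rs H) := by
  have := essFT_Rf hV.dvs
  have h1 := (prm_iff_dim_cen hH hV.dvs).1 hV
  have h2 := dim_cen_add H hV.dvs
  have h3 := Pl.free_rs (p := plV V) hH.free
  exact Mod.isMod_iff.2 ⟨h3, (Gfm.big_iff_dim_cf h3).2 (by
    change dim (cen H V) (Rf V) = 0
    omega)⟩

end Gen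

section Smooth

variable {F : Type} [Field F] [Algebra ℂ F] {P : PModel ℂ F} {V W U : RZ ℂ F} {H a : BD ℂ F}



variable [Algebra.EssFiniteType ℂ F]

/-- primes which meet along a prime divisor of the restricted model -/
theorem dg_pos_of_gz (hH : IsMod H) (hV : Prm H V) (hV' : Prm (oP P) V) (hW : Prm (oP P) W)
    (hne : V ≠ W) {d : ℕ} (hd : dim ℂ F = d + 2) {w : RZ ℂ (Rf V)} (hw : Prm ((plV V).rs H) w)
    (h : Gz (oP P) ((plV V).cm w) W) : 0 < dg V (dv P W :: replicate d H) := by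
  have := essFT_Rf hV.dvs
  have h1 : (dv P W).val (plV V).V = 1 := val_dv_ne hV' hne
  have h2 := dim_Rf' hV.dvs
  have h3 := dg_pos (isMod_rs hH hV) hw (d := d) (by omega)
  have h4 : 0 < od w ((plV V).res (dv P W)) := by
    have h5 := (Pl.val_res_le_iff (b := 0) (W := w) h1 rfl).not.2
      (not_le.2 ((one_lt_val_dv hW).2 h))
    rw [Pl.res_zero, ← od_le_iff hw.dvs, map_zero] at h5
    exact not_le.1 h5
  rw [dg_eq, List.map_cons, List.map_replicate, (Pl.lin_rs_res h1).bnum_eq]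
  exact (mul_pos h4 h3).trans_le (od_mul_le (Pl.res_nonneg h1 (dv_nonneg W))
    (all_rp (Pl.free_rs hH.free).nef d) hw.dvs)

variable {n : ℕ} {b : Module.Basis (Fin n) F Ω[F⁄ℂ]}

/-- the same model with a larger index -/
def sc (Z : TM b) (m : ℕ) (hm : 0 < m) : TM b where
  H := Z.H
  mod := Z.mod
  r := m * Z.r
  r_pos := mul_pos hm Z.r_pos
  κ := m • Z.κ
  car := Z.car.nsmul m
  κ_eq W V h1 h2 := by rw [mul_smul, val_nsmul, val_nsmul m, Z.κ_eq W V h1 h2]
  κ_lt W V h1 h2 := by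
    rw [mul_smul, val_nsmul, val_nsmul m]
    exact pow_lt_pow_left₀ (Z.κ_lt W V h1 h2) zero_le hm.ne'
  qf := Z.qf

theorem od_κ_eq (Z : TM b) (hV : Prm (oP P) V) (h : Prm Z.H V) :
    od V Z.κ = Z.r * od V (kP P b) := by
  rw [(od_eq_iff hV.dvs).2 (Z.κ_eq P V hV h), map_nsmul, nsmul_eq_mul]

theorem od_κ_lt (Z : TM b) (hV : Prm (oP P) V) (h : ¬ Prm Z.H V) :
    od V Z.κ < Z.r * od V (kP P b) := by
  have h1 := (od_lt_iff hV.dvs).2 (Z.κ_lt P V hV h)
  rwa [map_nsmul, nsmul_eq_mul] at h1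

end Smooth

end Crest.Agent.X262.Sub4
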